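import Vale.Agent.P242W.Rows
import Mathlib.Analysis.InnerProductSpace.ProdL2

/-!
# P242W, row PROJ: one resolvent step, by projection on the cone of relaxed pairs
-/

open MeasureTheory Set Filter Topology
open scoped ENNReal NNReal InnerProductSpace

universe u

namespace Vale.Agent.P242W55

open P233.Met (RSlope Good)

/-- projection on a closed convex cone of a Hilbert space -/
theorem cone_proj0 {H : Type*} [NormedAddCommGroup H] [InnerProductSpace ℝ H] [CompleteSpace H]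
    (K : Set H) (hc : IsClosed K) (h0 : (0 : H) ∈ K)
    (hcomb : ∀ a b : ℝ, 0 ≤ a → 0 ≤ b → ∀ z ∈ K, ∀ w ∈ K, a • z + b • w ∈ K) (z0 : H) :
    ∃ z ∈ K, ⟪z0 - z, z⟫_ℝ = 0 ∧ ∀ w ∈ K, ⟪z0 - z, w⟫_ℝ ≤ 0 := by
  have hconv : Convex ℝ K := fun z hz w hw a b ha hb _ => hcomb a b ha hb z hz w hw
  obtain ⟨z, hz, hmin⟩ := exists_norm_eq_iInf_of_complete_convex ⟨0, h0⟩ hc.isComplete hconv z0
  have hvar := (norm_eq_iInf_iff_real_inner_le_zero hconv hz).1 hmin
  have hge : ∀ w ∈ K, ⟪z0 - z, w⟫_ℝ ≤ 0 := by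
    intro w hw
    have h1 := hvar _ (hcomb 1 1 zero_le_one zero_le_one z hz w hw)
    rwa [one_smul, one_smul, add_sub_cancel_left] at h1
  refine ⟨z, hz, ?_, hge⟩
  have h1 := hvar 0 h0
  rw [zero_sub, inner_neg_right] at h1
  have h2 := hge z hz
  linarith

/-- projection on a closed convex cone of `E × E` for the norm `|u|² / τ + |g|²` -/
theorem cone_proj {E : Type*} [NormedAddCommGroup E] [InnerProductSpace ℝ E] [CompleteSpace E]
    (K : Set (E × E)) (hc : IsClosed K) (h0 : (0 : E × E) ∈ K)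
    (hadd : ∀ p ∈ K, ∀ q ∈ K, p + q ∈ K) (hsm : ∀ c : ℝ, 0 ≤ c → ∀ p ∈ K, c • p ∈ K)
    (f : E) {τ : ℝ} (hτ : 0 < τ) :
    ∃ p ∈ K, ⟪f - p.1, p.1⟫_ℝ = τ * ⟪p.2, p.2⟫_ℝ ∧
      ∀ q ∈ K, ⟪f - p.1, q.1⟫_ℝ ≤ τ * ⟪p.2, q.2⟫_ℝ := by
  obtain ⟨s, hs, hsτ⟩ : ∃ s : ℝ, 0 < s ∧ s * s = τ :=
    ⟨√τ, Real.sqrt_pos.2 hτ, Real.mul_self_sqrt hτ.le⟩
  obtain ⟨φ, hφ1, hφ2⟩ : ∃ φ : WithLp 2 (E × E) →L[ℝ] E × E,
      (∀ z, (φ z).1 = z.fst) ∧ ∀ z, s • (φ z).2 = z.snd := by
    refine ⟨((ContinuousLinearMap.id ℝ E).prodMap (s⁻¹ • ContinuousLinearMap.id ℝ E)).comp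
      (WithLp.prodContinuousLinearEquiv 2 ℝ E E).toContinuousLinearMap, fun z => rfl,
      fun z => ?_⟩
    show s • s⁻¹ • z.snd = z.snd
    rw [smul_smul, mul_inv_cancel₀ hs.ne', one_smul]
  have hin : ∀ z w : WithLp 2 (E × E), ⟪WithLp.toLp 2 (f, (0 : E)) - z, w⟫_ℝ =
      ⟪f - (φ z).1, (φ w).1⟫_ℝ - τ * ⟪(φ z).2, (φ w).2⟫_ℝ := by
    intro z w
    rw [WithLp.prod_inner_apply, hφ1, hφ1]
    show ⟪f - z.fst, w.fst⟫_ℝ + ⟪0 - z.snd, w.snd⟫_ℝ = _
    rw [← hφ2 z, ← hφ2 w, zero_sub, inner_neg_left, real_inner_smul_left, real_inner_smul_right,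
      ← hsτ]
    ring
  obtain ⟨z, hz, heq, hge⟩ := cone_proj0 (φ ⁻¹' K) (hc.preimage φ.continuous)
    (by rw [mem_preimage, map_zero]; exact h0)
    (fun a b ha hb z hz w hw => by
      rw [mem_preimage, map_add, map_smul, map_smul]
      exact hadd _ (hsm a ha _ hz) _ (hsm b hb _ hw)) (WithLp.toLp 2 (f, (0 : E)))
  refine ⟨φ z, hz, ?_, fun q hq => ?_⟩
  · rw [hin] at heq
    linarith
  · have e : φ (WithLp.toLp 2 (q.1, s • q.2)) = q := by
      refine Prod.ext (hφ1 _) (smul_right_injective E hs.ne' ?_)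
      exact hφ2 _
    have h1 := hge (WithLp.toLp 2 (q.1, s • q.2)) (by rw [mem_preimage, e]; exact hq)
    rw [hin, e] at h1
    linarith

variable {X : Type u} [MetricSpace X] [MeasurableSpace X] {m : Measure X}

omit [MetricSpace X] in
theorem inner_eq (a b : Lp ℝ 2 m) : ⟪a, b⟫_ℝ = ∫ x, a x * b x ∂m := by
  rw [L2.inner_def]
  refine integral_congr_ae (Eventually.of_forall fun x => ?_)
  simp [mul_comm]

omit [MetricSpace X] in
theorem norm_eq (a : Lp ℝ 2 m) : ‖a‖ = √(∫ x, a x ^ 2 ∂m) := by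
  rw [norm_eq_sqrt_real_inner, inner_eq]
  simp only [sq]

theorem rSlope_const [IsFiniteMeasure m] (c : ℝ) : RSlope m (fun _ => c) 0 := by
  apply Good.rSlope
  refine Good.mk' ⟨0, LipschitzWith.const c⟩ (memLp_const c) MemLp.zero ?_
  filter_upwards with x
  refine ⟨le_rfl, fun c hc => ?_⟩
  filter_upwards with y
  have := dist_nonneg (x := y) (y := x)
  simp only [sub_self, abs_zero]
  exact mul_nonneg (le_of_lt hc) this

theorem clamp_lip (M : ℝ) : LipschitzWith 1 fun t : ℝ => max (min t M) (-M) :=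
  (LipschitzWith.id.min_const M).max_const (-M)

theorem clamp_abs {M : ℝ} (hM : 0 ≤ M) (t : ℝ) : |max (min t M) (-M)| ≤ M :=
  abs_le.2 ⟨le_max_right _ _, max_le (min_le_right _ _) (by linarith)⟩

theorem clamp_eq {M t : ℝ} (h : |t| ≤ M) : max (min t M) (-M) = t := by
  rw [min_eq_left (abs_le.1 h).2, max_eq_left (abs_le.1 h).1]

theorem proj : P242W.PROJ X := by
  intro m _ f M0 τ hf hM0 hτ
  set M := |M0| with hMdef
  have hM0' : 0 ≤ M := abs_nonneg _
  have hM : ∀ x, |f x| ≤ M := fun x => (hM0 x).trans (le_abs_self _)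
  have hf2 : MemLp f 2 m :=
    MemLp.of_bound hf M (Eventually.of_forall fun x => by rw [Real.norm_eq_abs]; exact hM x)
  let K : Set (Lp ℝ 2 m × Lp ℝ 2 m) := {p | RSlope m p.1 p.2}
  have hmem : ∀ {v g : X → ℝ} (h : RSlope m v g), (h.1.toLp, h.2.1.toLp) ∈ K := fun h =>
    h.congr h.1.coeFn_toLp.symm h.2.1.coeFn_toLp.symm
  have hc : IsClosed K := by
    refine isClosed_of_closure_subset fun g hg => ?_
    rw [mem_closure_iff_seq_limit] at hg
    obtain ⟨s, hs, hlim⟩ := hg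
    have h1 := (continuous_fst.tendsto g).comp hlim
    have h2 := (continuous_snd.tendsto g).comp hlim
    rw [Lp.tendsto_Lp_iff_tendsto_eLpNorm'] at h1 h2
    exact RSlope.of_tendsto (F := fun n => (s n).1) (H := fun n => (s n).2) (Lp.memLp _)
      (Lp.memLp _) hs h1 h2
  have h0 : (0 : Lp ℝ 2 m × Lp ℝ 2 m) ∈ K :=
    P233.Met.rSlope_zero.congr (Lp.coeFn_zero ℝ 2 m).symm (Lp.coeFn_zero ℝ 2 m).symm
  have hadd : ∀ p ∈ K, ∀ q ∈ K, p + q ∈ K := fun p hp q hq =>
    (RSlope.add hp hq).congr (Lp.coeFn_add p.1 q.1).symm (Lp.coeFn_add p.2 q.2).symm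
  have hsm : ∀ c : ℝ, 0 ≤ c → ∀ p ∈ K, c • p ∈ K := by
    intro c hc p hp
    refine (RSlope.const_mul c hp).congr (Lp.coeFn_smul c p.1).symm ?_
    rw [abs_of_nonneg hc]
    exact (Lp.coeFn_smul c p.2).symm
  obtain ⟨⟨u, b⟩, hub, heq, hle⟩ := cone_proj K hc h0 hadd hsm hf2.toLp hτ
  simp only at heq hle
  set F := hf2.toLp with hF
  have hFf : F =ᵐ[m] f := hf2.coeFn_toLp
  -- the truncation of `u` is `u`
  have hT : RSlope m (fun x => max (min (u x) M) (-M)) b := by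
    have h1 := RSlope.comp_lip hub (clamp_lip M) (by
      rw [min_eq_left hM0', max_eq_left (by linarith)])
    refine h1.congr EventuallyEq.rfl (Eventually.of_forall fun x => ?_)
    simp
  have hub' : ∀ᵐ x ∂m, |u x| ≤ M := by
    set u' := hT.1.toLp with hu'
    have e1 : u' =ᵐ[m] fun x => max (min (u x) M) (-M) := hT.1.coeFn_toLp
    have hK : (u', b) ∈ K := hT.congr e1.symm EventuallyEq.rfl
    have h1 := hle _ hK
    simp only at h1
    have h2 : ‖F - u'‖ ≤ ‖F - u‖ := by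
      refine Lp.norm_le_norm_of_ae_le ?_
      filter_upwards [Lp.coeFn_sub F u', Lp.coeFn_sub F u, e1, hFf] with x a1 a2 a3 a4
      rw [a1, a2, Pi.sub_apply, Pi.sub_apply, a3, a4]
      have := (clamp_lip M).dist_le_mul (f x) (u x)
      rw [clamp_eq (hM x)] at this
      simpa [dist_eq_norm] using this
    have h3 : F - u' = (F - u) - (u' - u) := by abel
    have h4 := norm_sub_sq_real (F - u) (u' - u)
    rw [← h3, inner_sub_right] at h4
    have h5 : ‖F - u'‖ ^ 2 ≤ ‖F - u‖ ^ 2 := by gcongr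
    have h6 : ‖u' - u‖ ^ 2 ≤ 0 := by linarith
    have h7 : u' = u := by
      have : ‖u' - u‖ = 0 := by
        have := sq_nonneg ‖u' - u‖
        exact pow_eq_zero_iff two_ne_zero |>.1 (le_antisymm h6 this)
      exact sub_eq_zero.1 (norm_eq_zero.1 this)
    rw [h7] at e1
    filter_upwards [e1] with x hx
    rw [hx]; exact clamp_abs hM0' _
  let B : ℝ := 2 * M / τ
  have hB : 0 ≤ B := by positivity
  let w : Lp ℝ 2 m := F - u
  let h : X → ℝ := fun x => max (min (w x / τ) B) (-B)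
  have hwm : Measurable w := (Lp.stronglyMeasurable w).measurable
  have hw : ∀ᵐ x ∂m, w x = f x - u x ∧ w x = τ * h x := by
    filter_upwards [Lp.coeFn_sub F u, hFf, hub'] with x a1 a2 a3
    have e : w x = f x - u x := by rw [← a2]; exact a1
    refine ⟨e, ?_⟩
    have : |w x / τ| ≤ B := by
      rw [abs_div, abs_of_pos hτ, e]
      have := (abs_sub (f x) (u x)).trans (add_le_add (hM x) a3)
      exact div_le_div_of_nonneg_right (by linarith) hτ.le
    simp only [h]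
    rw [clamp_eq this]
    field_simp
  have hint : ∀ (v : Lp ℝ 2 m) (v' : X → ℝ), v =ᵐ[m] v' →
      ⟪F - u, v⟫_ℝ = τ * ∫ x, v' x * h x ∂m := by
    intro v v' hv
    rw [inner_eq, ← integral_const_mul]
    refine integral_congr_ae ?_
    filter_upwards [hw, hv] with x a1 a2
    rw [← a2]
    show w x * v x = _
    rw [a1.2]; ring
  have hkey : ∀ v g, RSlope m v g →
      ∫ x, v x * h x ∂m ≤ √(∫ x, b x ^ 2 ∂m) * √(∫ x, g x ^ 2 ∂m) := by
    intro v g hvg
    have h1 := hle _ (hmem hvg)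
    simp only at h1
    rw [hint _ v hvg.1.coeFn_toLp] at h1
    have h2 := (le_of_mul_le_mul_left h1 hτ).trans (real_inner_le_norm _ _)
    rw [norm_eq, norm_eq] at h2
    refine h2.trans (le_of_eq ?_)
    congr 2
    refine integral_congr_ae ?_
    filter_upwards [hvg.2.1.coeFn_toLp] with x hx
    rw [hx]
  refine ⟨u, b, h, B, hub, ((hwm.div_const τ).min measurable_const).max measurable_const,
    fun x => clamp_abs hB _, ?_, ?_, ?_, fun v g hvg => hkey v g hvg.rSlope⟩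
  · filter_upwards [hw] with x hx
    rw [← hx.1]; exact hx.2
  · have h1 := hkey _ _ (rSlope_const (m := m) 1)
    have h2 := hkey _ _ (rSlope_const (m := m) (-1))
    simp only [one_mul, Pi.zero_apply, neg_mul, integral_neg, ne_eq, OfNat.ofNat_ne_zero,
      not_false_eq_true, zero_pow, integral_zero, Real.sqrt_zero, mul_zero] at h1 h2
    linarith
  · rw [hint u u EventuallyEq.rfl, inner_eq] at heq
    have := mul_left_cancel₀ hτ.ne' heq
    rw [this]
    simp only [sq]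

end Vale.Agent.P242W55
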