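import Vale.Agent.P242W39.Rows

/-!
# P242W, row UGL: the slope of a Lipschitz function is an upper gradient
-/

open MeasureTheory Set Filter Topology unitInterval
open scoped ENNReal NNReal

universe u

namespace Vale.Agent.P242W55

open P242W

variable {X : Type u} [MetricSpace X]

/-- the pointwise bound of the derivative of `u ∘ γ` -/
theorem deriv_le (u : X → ℝ) (γ : C(I, X)) (r : I) (h0 : 0 < (r : ℝ)) (h1 : (r : ℝ) < 1)
    (hl : P233.lipAt u (γ r) ≠ ∞) (hs : speed γ r ≠ ∞) :
    ‖deriv (fun x => u (γ (projIcc 0 1 zero_le_one x))) r‖ₑ ≤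
      P233.lipAt u (γ r) * speed γ r := by
  set a := (P233.lipAt u (γ r)).toReal with ha
  set b := (speed γ r).toReal with hb
  have ha0 : 0 ≤ a := ENNReal.toReal_nonneg
  have hb0 : 0 ≤ b := ENNReal.toReal_nonneg
  have hL : P233.Met.LipBd u (γ r) a :=
    (P233.Met.lipAt_le_ofReal_iff ha0).1 (by rw [ha, ENNReal.ofReal_toReal hl])
  have key : ∀ ε : ℝ, 0 < ε →
      ‖deriv (fun x => u (γ (projIcc 0 1 zero_le_one x))) r‖ ≤ (a + ε) * (b + ε) := by
    intro ε hε
    refine norm_deriv_le_of_lip' (by positivity) ?_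
    have hp : Tendsto (projIcc (0 : ℝ) 1 zero_le_one) (𝓝 (r : ℝ)) (𝓝 r) := by
      have := (continuous_projIcc (h := zero_le_one)).tendsto (r : ℝ)
      rwa [projIcc_val] at this
    have e1 := (γ.continuous.tendsto r).eventually (hL (a + ε) (by linarith))
    have hlt : speed γ r < ENNReal.ofReal (b + ε) := by
      rw [← ENNReal.ofReal_toReal hs]
      exact (ENNReal.ofReal_lt_ofReal_iff (by positivity)).2 (by linarith)
    have e2 := eventually_nhdsWithin_iff.1 (eventually_lt_of_limsup_lt hlt)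
    filter_upwards [hp.eventually e1, hp.eventually e2, Ioo_mem_nhds h0 h1] with x x1 x2 x3
    have hx : (projIcc (0 : ℝ) 1 zero_le_one x : ℝ) = x := by
      rw [projIcc_of_mem zero_le_one (Ioo_subset_Icc_self x3)]
    rw [projIcc_val, Real.norm_eq_abs, Real.norm_eq_abs]
    refine x1.trans ?_
    rw [mul_assoc]
    refine mul_le_mul_of_nonneg_left ?_ (by positivity)
    by_cases hxr : projIcc (0 : ℝ) 1 zero_le_one x = r
    · rw [hxr, dist_self]; positivity
    · have h3 := (x2 hxr).le
      have hd : dist (projIcc (0 : ℝ) 1 zero_le_one x) r = |x - r| := by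
        rw [Subtype.dist_eq, hx, Real.dist_eq]
      have hpos : 0 < |x - r| := by rw [← hd]; exact dist_pos.2 hxr
      rw [edist_dist, edist_dist, hd, ← ENNReal.ofReal_div_of_pos hpos,
        ENNReal.ofReal_le_ofReal_iff (by positivity), div_le_iff₀ hpos] at h3
      exact h3
  have hle : ‖deriv (fun x => u (γ (projIcc 0 1 zero_le_one x))) r‖ ≤ a * b := by
    have hc : Tendsto (fun ε : ℝ => (a + ε) * (b + ε)) (𝓝[>] 0) (𝓝 (a * b)) := by
      have : Continuous fun ε : ℝ => (a + ε) * (b + ε) := by fun_prop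
      simpa using (this.tendsto 0).mono_left nhdsWithin_le_nhds
    exact ge_of_tendsto hc (eventually_nhdsWithin_of_forall key)
  rw [← ENNReal.ofReal_toReal hl, ← ENNReal.ofReal_toReal hs, ← ENNReal.ofReal_mul ha0,
    ← ofReal_norm]
  exact ENNReal.ofReal_le_ofReal hle

theorem ugl_of (hS : SPD X) : UGL X := by
  intro u K hK γ hγ s t hst
  obtain ⟨g, hg, h⟩ := hγ
  have hg1 : Integrable g := memLp_one_iff_integrable.1 hg
  let v : ℝ → ℝ := fun r => g (projIcc 0 1 zero_le_one r)
  let φ : ℝ → ℝ := fun x => u (γ (projIcc 0 1 zero_le_one x))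
  have hv : ∀ t : I, v t = g t := fun t => by simp only [v, projIcc_val]
  have hφ : ∀ t : I, φ t = u (γ t) := fun t => by simp only [φ, projIcc_val]
  have h1 : IntervalIntegrable v volume 0 1 := by
    rw [intervalIntegrable_iff_integrableOn_Icc_of_le zero_le_one]
    refine (measurePreserving_coe.integrable_comp_emb measurableEmbedding_coe).1 ?_
    rwa [show v ∘ Subtype.val = g from funext hv]
  have hV := (h1.absolutelyContinuousOnInterval_intervalIntegral (c := 0) (by simp)).const_mul K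
  have hb : ∀ x y : I, x ≤ y →
      dist (φ x) (φ y) ≤ dist (K * ∫ r in (0 : ℝ)..x, v r) (K * ∫ r in (0 : ℝ)..y, v r) := by
    intro x y hxy
    have a1 := h x y hxy
    simp only [← hv] at a1
    rw [P242W39.setIntegral_Icc v hxy] at a1
    have m1 : ∀ z : I, IntervalIntegrable v volume 0 z := fun z =>
      h1.mono_set (by rw [uIcc_of_le z.2.1, uIcc_of_le zero_le_one]; exact Icc_subset_Icc_right z.2.2)
    rw [hφ, hφ, Real.dist_eq (K * _), abs_sub_comm, ← mul_sub,
      intervalIntegral.integral_interval_sub_left (m1 y) (m1 x)]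
    refine (hK.dist_le_mul _ _).trans (le_trans ?_ (le_abs_self _))
    exact mul_le_mul_of_nonneg_left a1 K.coe_nonneg
  have hac : AbsolutelyContinuousOnInterval φ 0 1 := by
    refine squeeze_zero' (Eventually.of_forall fun E => Finset.sum_nonneg fun _ _ => dist_nonneg)
      ?_ hV
    refine eventually_inf_principal.2 (Eventually.of_forall fun E hE => ?_)
    refine Finset.sum_le_sum fun i hi => ?_
    have hm := hE.1 i hi
    rw [uIcc_of_le zero_le_one] at hm
    rcases le_total (E.2 i).1 (E.2 i).2 with hh | hh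
    · exact hb ⟨_, hm.1⟩ ⟨_, hm.2⟩ hh
    · rw [dist_comm, dist_comm (K * _ : ℝ)]
      exact hb ⟨_, hm.2⟩ ⟨_, hm.1⟩ hh
  have hst' : (s : ℝ) ≤ t := hst
  have hac' := hac.mono (c := s) (d := t) (by
    rw [uIcc_of_le hst', uIcc_of_le zero_le_one]; exact Icc_subset_Icc s.2.1 t.2.2)
  have hftc := hac'.integral_deriv_eq_sub
  rw [hφ, hφ, ← P242W39.setIntegral_Icc _ hst] at hftc
  rw [← hftc]
  refine (enorm_integral_le_lintegral_enorm _).trans (lintegral_mono_ae (ae_restrict_of_ae ?_))
  have n0 : ∀ᵐ r : I, r ≠ 0 := by simp [ae_iff]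
  have n1 : ∀ᵐ r : I, r ≠ 1 := by simp [ae_iff]
  filter_upwards [hS γ g hg1 h, n0, n1] with r a1 a2 a3
  refine deriv_le u γ r (unitInterval.pos_iff_ne_zero.2 a2) (unitInterval.lt_one_iff_ne_one.2 a3)
    ?_ (ne_top_of_le_ne_top enorm_ne_top a1)
  refine ne_top_of_le_ne_top (ENNReal.ofReal_ne_top (r := K)) ?_
  refine (P233.Met.lipAt_le_ofReal_iff K.coe_nonneg).2 fun c hc => Eventually.of_forall fun y => ?_
  rw [← Real.dist_eq]
  exact (hK.dist_le_mul _ _).trans (mul_le_mul_of_nonneg_right hc.le dist_nonneg)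

theorem ugl : UGL X := ugl_of (P242W39.spd X)

end Vale.Agent.P242W55
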